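import Crest.Agent.X212.Mod61.Cnt

/-!
# Row 212, P-PEX (helper33): a moduli problem coupled with a second equation

`pex Q l D` : the pairs `(v, h)` with `F v = 0`, `G h = 0`, `l v = ρ h`.
-/

set_option autoImplicit false
set_option linter.unusedSectionVars false
noncomputable section
open Set Filter Topology Function
open scoped ContDiff

namespace Crest.Agent.X212.Pex33
open Mod61 Slc61 Fred93

/-- the second equation `G0 h + ∑ q w • G w h = 0` on `V`, of index `d`, and the function `ρ` -/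
structure PD (W K K' : Type) where
  V : Set K
  G0 : K → K'
  G : W → K → K'
  ρ : K → ℝ
  d : ℤ

variable {W K K' : Type} [NormedAddCommGroup K] [NormedSpace ℝ K] [CompleteSpace K]
  [NormedAddCommGroup K'] [NormedSpace ℝ K'] [CompleteSpace K']

/-- the perturbed second equation -/
def PD.F (D : PD W K K') (q : W →₀ ℝ) (h : K) : K' := D.G0 h + q.sum fun w c => c • D.G w h

structure PD.OK (D : PD W K K') (Adm : (W →₀ ℝ) → Prop) : Prop where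
  op : IsOpen D.V
  s0 : ContDiffOn ℝ ∞ D.G0 D.V
  sG : ∀ w, ContDiffOn ℝ ∞ (D.G w) D.V
  sρ : ContDiffOn ℝ ∞ D.ρ D.V
  fr : ∀ q, Adm q → ∀ h ∈ D.V, D.F q h = 0 → Fr (fderiv ℝ (D.F q) h) D.d

/-- smooth functions on the Banach models, invariant under the groups and under transport -/
structure InvT (Q : Prob W) (l : ∀ o, Q.C o → ℝ) : Prop where
  sm : ∀ o, ContDiffOn ℝ ∞ (l o) (Q.U o)
  g : ∀ o (g : Q.G o), ∀ v ∈ Q.U o, l o (g • v) = l o v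
  tr : ∀ x x' : Q.X, Q.In x → Q.eqv x x' → ∃ T : Q.C x.1 → Q.C x'.1, T (Q.pt x.2) = Q.pt x'.2 ∧
    Q.Tw T (Q.pt x.2) ∧ (∀ᶠ u in 𝓝 (Q.pt x.2), l _ (T u) = l _ u) ∧
    ∀ y : Q.S x.1, ∃ y' : Q.S x'.1, Q.pt y' = T (Q.pt y) ∧ Q.eqv ⟨x.1, y⟩ ⟨x'.1, y'⟩

/-- the action on the first factor -/
abbrev act (G C K : Type) [Group G] [MulAction G C] : MulAction G (C × K) where
  smul g z := (g • z.1, z.2)
  one_smul z := Prod.ext (one_smul G z.1) rfl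
  mul_smul g g' z := Prod.ext (mul_smul g g' z.1) rfl

/-- the coupled problem -/
abbrev pex (Q : Prob W) (l : ∀ o, Q.C o → ℝ) (D : PD W K K') : Prob W where
  O := Q.O
  S o := Q.S o × K
  eqv := ⟨fun x y => Q.eqv ⟨x.1, x.2.1⟩ ⟨y.1, y.2.1⟩ ∧ x.2.2 = y.2.2,
    fun _ => ⟨Q.eqv.refl _, rfl⟩, fun h => ⟨Q.eqv.symm h.1, h.2.symm⟩,
    fun h h' => ⟨Q.eqv.trans h.1 h'.1, h.2.trans h'.2⟩⟩
  C o := Q.C o × K
  E o := Q.E o × K' × ℝ
  L := Q.L
  H := Q.H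
  G := Q.G
  aG o := act (Q.G o) (Q.C o) K
  pt y := (Q.pt y.1, y.2)
  U o := Q.U o ×ˢ D.V
  F0 o z := (Q.F0 o z.1, D.G0 z.2, l o z.1 - D.ρ z.2)
  τ o w z := (Q.τ o w z.1, D.G w z.2, 0)
  In x := Q.In ⟨x.1, x.2.1⟩ ∧ x.2.2 ∈ D.V
  n := Q.n + D.d - 1

variable {Q : Prob W} {l : ∀ o, Q.C o → ℝ} {D : PD W K K'} {Adm : (W →₀ ℝ) → Prop} {q : W →₀ ℝ}

variable (l D) in
/-- the configuration of the coupled problem -/
abbrev mk (x : Q.X) (h : K) : (pex Q l D).X := ⟨x.1, (x.2, h)⟩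

/-- the first component -/
abbrev fst (z : (pex Q l D).X) : Q.X := ⟨z.1, z.2.1⟩

theorem InvT.e (hl : InvT Q l) {x y : Q.X} (hx : Q.In x) (e : Q.eqv x y) : l _ (Q.pt x.2) = l _ (Q.pt y.2) := by
  obtain ⟨T, a, -, b, -⟩ := hl.tr x y hx e
  rw [← a, b.self_of_nhds]

theorem F_eq (o : Q.O) (q : W →₀ ℝ) : (pex Q l D).F o q =
    fun z : Q.C o × K => (Q.F o q z.1, D.F q z.2, l o z.1 - D.ρ z.2) := by
  funext z
  refine Prod.ext ?_ (Prod.ext ?_ ?_)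
  · exact congrArg (Q.F0 o z.1 + ·) (Prod.fst_sum (f := fun w => q w • (Q.τ o w z.1, D.G w z.2, (0 : ℝ))))
  · refine congrArg (D.G0 z.2 + ·) ?_
    change (∑ w ∈ q.support, q w • (Q.τ o w z.1, D.G w z.2, (0 : ℝ))).2.1 = _
    rw [Prod.snd_sum, Prod.fst_sum]; rfl
  · change _ + (∑ w ∈ q.support, q w • (Q.τ o w z.1, D.G w z.2, (0 : ℝ))).2.2 = _
    rw [Prod.snd_sum, Prod.snd_sum]
    simp only [Prod.smul_snd, smul_zero, Finset.sum_const_zero, add_zero]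

theorem sol_iff (z : (pex Q l D).X) : (pex Q l D).Sol q z ↔
    Q.Sol q (fst z) ∧ z.2.2 ∈ D.V ∧ D.F q z.2.2 = 0 ∧ l _ (Q.pt z.2.1) = D.ρ z.2.2 := by
  rw [Prob.Sol, F_eq]
  exact ⟨fun ⟨a, b⟩ => ⟨⟨a.1, congrArg Prod.fst b⟩, a.2, congrArg (·.2.1) b, sub_eq_zero.1 (congrArg (·.2.2) b)⟩,
    fun ⟨a, b, c, d⟩ => ⟨⟨a.1, b⟩, Prod.ext a.2 (Prod.ext c (sub_eq_zero.2 d))⟩⟩

theorem tendsto_near {ι : Type*} {𝓕 : Filter ι} {u : ι → (pex Q l D).X} {z : (pex Q l D).X} :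
    Tendsto u 𝓕 ((pex Q l D).Near z) ↔
      Tendsto (fun i => fst (u i)) 𝓕 (Q.Near (fst z)) ∧ Tendsto (fun i => (u i).2.2) 𝓕 (𝓝 z.2.2) := by
  rw [Prob.tendsto_near, Prob.tendsto_near]
  refine ⟨fun h => ⟨fun N hN => ?_, fun N hN => ?_⟩, fun ⟨a, b⟩ N hN => ?_⟩
  · exact (h _ (prod_mem_nhds hN univ_mem)).mono fun i ⟨y, c, d⟩ => ⟨y.1, c.1, d.1⟩
  · exact (h _ (prod_mem_nhds univ_mem hN)).mono fun i ⟨_, c, d⟩ =>
      mem_of_eq_of_mem (s := N) d.2 c.2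
  · obtain ⟨N1, h1, N2, h2, s⟩ := mem_nhds_prod_iff.1 hN
    filter_upwards [a N1 h1, b h2] with i ⟨y, c, d⟩ e
    exact ⟨(y, (u i).2.2), s (mk_mem_prod c e), d, rfl⟩

theorem PD.OK.smF (hD : D.OK Adm) (q : W →₀ ℝ) : ContDiffOn ℝ ∞ (D.F q) D.V :=
  hD.s0.add (ContDiffOn.sum fun w _ => (hD.sG w).const_smul (q w))

theorem tw {o o' : Q.O} {T : Q.C o → Q.C o'} {v : Q.C o} (h : Q.Tw T v) (e : ∀ᶠ u in 𝓝 v, l _ (T u) = l _ u) (k : K) :
    (pex Q l D).Tw (o := o) (o' := o') (fun z : Q.C o × K => (T z.1, z.2)) (v, k) := by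
  obtain ⟨A, ρ, a, b, c⟩ := h
  refine ⟨A.prodMap (.id ℝ K), ρ.prodCongr (.refl ℝ _), a.prodMap (v, k) (hasFDerivAt_id k),
    b.prodMap surjective_id, ?_⟩
  filter_upwards [(continuous_fst.tendsto (v, k)).eventually (c.and e)] with z ⟨⟨a, b⟩, e⟩
  exact ⟨Prod.ext a (Prod.ext rfl (congrArg (· - D.ρ z.2) e)), fun w => Prod.ext (b w) rfl⟩

/-- slice data for the action on the first factor -/
def slc {G C L H : Type} [Group G] [NormedAddCommGroup C] [NormedSpace ℝ C] [MulAction G C] [NormedAddCommGroup L]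
    [NormedSpace ℝ L] [NormedAddCommGroup H] [NormedSpace ℝ H] {v : C} (S : SliceData G L H v) (k : K) :
    letI := act G C K; SliceData G L H (v, k) :=
  letI := act G C K
  { e := S.e
    d := (ContinuousLinearMap.inl ℝ C K).comp S.d
    γ := fun z => S.γ z.1
    σ := S.σ.comp (.fst ℝ C K)
    e_zero := S.e_zero
    act := by
      have a : HasStrictFDerivAt (fun p : L × C × K => (p.1, p.2.1))
          ((ContinuousLinearMap.id ℝ L).prodMap (.fst ℝ C K)) (0, v, k) :=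
        ((ContinuousLinearMap.id ℝ L).prodMap (.fst ℝ C K)).hasStrictFDerivAt
      have b := (HasStrictFDerivAt.comp (f := fun p : L × C × K => (p.1, p.2.1)) (0, v, k) S.act a).prodMk
        (((ContinuousLinearMap.snd ℝ C K).comp (.snd ℝ L (C × K))).hasStrictFDerivAt (x := (0, v, k)))
      exact b.congr_fderiv (ContinuousLinearMap.ext fun p => Prod.ext rfl (zero_add _).symm)
    gf := HasStrictFDerivAt.comp (f := Prod.fst) (v, k) S.gf hasStrictFDerivAt_fst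
    gf0 := S.gf0
    bij := S.bij
    tame := fun U hU => by
      obtain ⟨V, a, b⟩ := S.tame U hU
      refine ⟨_, prod_mem_nhds a univ_mem, fun x hx g hg => ?_⟩
      obtain ⟨ξ, c, d⟩ := b x.1 hx.1 g hg.1
      exact ⟨ξ, c, Prod.ext d rfl⟩ }

section der
variable (hQ : Q.Ax Adm) (hl : InvT Q l) (hD : D.OK Adm)
include hQ hl hD

theorem hasD {o : Q.O} {v : Q.C o} {h : K} (hv : v ∈ Q.U o) (hh : h ∈ D.V) :
    HasFDerivAt ((pex Q l D).F o q) (((fderiv ℝ (Q.F o q) v).comp (.fst ℝ _ K)).prod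
      (((fderiv ℝ (D.F q) h).comp (.snd ℝ _ K)).prod
        ((fderiv ℝ (l o) v).comp (.fst ℝ _ K) - (fderiv ℝ D.ρ h).comp (.snd ℝ _ K)))) (v, h) := by
  have d : ∀ {A B : Type} [NormedAddCommGroup A] [NormedSpace ℝ A] [NormedAddCommGroup B] [NormedSpace ℝ B]
      {f : A → B} {U : Set A} {a : A}, ContDiffOn ℝ ∞ f U → IsOpen U → a ∈ U → HasFDerivAt f (fderiv ℝ f a) a :=
    fun a b c => ((a.contDiffAt (b.mem_nhds c)).differentiableAt (by simp)).hasFDerivAt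
  rw [F_eq]
  exact (HasFDerivAt.comp (f := Prod.fst) (v, h) (d (hQ.smF o q) (hQ.isOpen o) hv) hasFDerivAt_fst).prodMk
    ((HasFDerivAt.comp (f := Prod.snd) (v, h) (d (hD.smF q) hD.op hh) hasFDerivAt_snd).prodMk
      ((HasFDerivAt.comp (f := Prod.fst) (v, h) (d (hl.sm o) (hQ.isOpen o) hv) hasFDerivAt_fst).sub
        (HasFDerivAt.comp (f := Prod.snd) (v, h) (d hD.sρ hD.op hh) hasFDerivAt_snd)))

theorem fderiv_F {z : (pex Q l D).X} (hz : (pex Q l D).In z) (u : Q.C z.1) (k : K) :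
    fderiv ℝ ((pex Q l D).F z.1 q) ((pex Q l D).pt z.2) (u, k) = (fderiv ℝ (Q.F z.1 q) (Q.pt z.2.1) u,
      fderiv ℝ (D.F q) z.2.2 k, fderiv ℝ (l z.1) (Q.pt z.2.1) u - fderiv ℝ D.ρ z.2.2 k) := by
  rw [show fderiv ℝ ((pex Q l D).F z.1 q) ((pex Q l D).pt z.2) = _ from
    (hasD hQ hl hD (hQ.mem (fst z) hz.1) hz.2).fderiv]
  rfl

/-- **the axioms** -/
theorem ax : (pex Q l D).Ax Adm where
  isOpen o := (hQ.isOpen o).prod hD.op
  inv o g v hv := ⟨hQ.inv o g v.1 hv.1, hv.2⟩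
  sm0 o := ((hQ.sm0 o).comp contDiffOn_fst fun _ h => h.1).prodMk ((hD.s0.comp contDiffOn_snd fun _ h => h.2).prodMk
    (((hl.sm o).comp contDiffOn_fst fun _ h => h.1).sub (hD.sρ.comp contDiffOn_snd fun _ h => h.2)))
  smτ o w := ((hQ.smτ o w).comp contDiffOn_fst fun _ h => h.1).prodMk
    (((hD.sG w).comp contDiffOn_snd fun _ h => h.2).prodMk contDiffOn_const)
  mem x h := ⟨hQ.mem (fst x) h.1, h.2⟩
  in_eqv x y e h := ⟨hQ.in_eqv _ _ e.1 h.1, e.2 ▸ h.2⟩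
  cont o := @ContinuousConstSMul.mk _ _ _ (act (Q.G o) (Q.C o) K).toSMul fun g => ((hQ.cont o).1 g).prodMap continuous_id
  act o g v hv := tw (hQ.act o g v.1 hv.1) (mem_of_superset ((hQ.isOpen o).mem_nhds hv.1) (hl.g o g)) v.2
  orb o y y' a b := ⟨fun e => ((hQ.orb o y.1 y'.1 a.1 b.1).1 e.1).imp fun _ k => Prod.ext k e.2,
    fun ⟨g, e⟩ => ⟨(hQ.orb o y.1 y'.1 a.1 b.1).2 ⟨g, congrArg Prod.fst e⟩, (congrArg Prod.snd e :)⟩⟩
  tr x x' a e := by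
    obtain ⟨T, b, c, d, f⟩ := hl.tr (fst x) (fst x') a.1 e.1
    refine ⟨_, Prod.ext b e.2, tw c d x.2.2, fun y => ?_⟩
    obtain ⟨y', g, k⟩ := f y.1
    exact ⟨(y', y.2), Prod.ext g rfl, k, rfl⟩
  slc q x a s := by
    obtain ⟨s1, s2, s3, -⟩ := (sol_iff x).1 s
    obtain ⟨S, b, c, d⟩ := hQ.slc q _ a s1
    refine ⟨slc S x.2.2, b.comp contDiff_fst, ?_, ?_⟩
    · have := (((c.prodMap (hD.fr q a _ s2 s3)).prod ((fderiv ℝ (l x.1) (Q.pt x.2.1)).comp (.fst ℝ _ K) -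
        (fderiv ℝ D.ρ x.2.2).comp (.snd ℝ _ K))).conj (.refl ℝ _)
          ((ContinuousLinearEquiv.prodAssoc ℝ _ _ _).trans ((ContinuousLinearEquiv.prodAssoc ℝ _ _ _).trans
            (((ContinuousLinearEquiv.refl ℝ _).prodCongr (.prodComm ℝ _ _)).trans
              (ContinuousLinearEquiv.prodAssoc ℝ _ _ _).symm)))).cast (m := Q.n + D.d - 1) (by simp)
      exact this.congr fun z => Prod.ext (fderiv_F hQ hl hD s.1 z.1 z.2) rfl
    · filter_upwards [(continuous_fst.tendsto (Q.pt x.2.1, x.2.2)).eventually d,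
        (continuous_snd.tendsto (Q.pt x.2.1, x.2.2)).eventually (hD.op.mem_nhds s2)] with z e f g k
      rw [F_eq] at g
      obtain ⟨y, m, n⟩ := e (congrArg Prod.fst g) k
      exact ⟨(y, z.2), Prod.ext m rfl, n, f⟩
  cl o x g a b hx ha hb h1 h2 := by
    have m : ∀ {z : Q.C o × K}, z ∈ @sat (Q.G o) _ _ (act _ _ _) ((pex Q l D).pt '' {y | (pex Q l D).In ⟨o, y⟩}) →
        z.1 ∈ sat (Q.G o) (Q.pt '' {y | Q.In ⟨o, y⟩}) := fun ⟨g, y, c, d⟩ => ⟨g, y.1, c.1, congrArg Prod.fst d⟩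
    obtain ⟨k, e⟩ := hQ.cl o (fun n => (x n).1) g a.1 b.1 (fun n => m (hx n)) (m ha) (m hb)
      ((continuous_fst.tendsto _).comp h1) ((continuous_fst.tendsto _).comp h2)
    exact ⟨k, Prod.ext e (tendsto_nhds_unique ((continuous_snd.tendsto a).comp h1)
      ((continuous_snd.tendsto b).comp h2 :))⟩

variable {z : (pex Q l D).X} (hz : (pex Q l D).In z)
include hz

/-- regularity in components -/
theorem reg_iff : (pex Q l D).Reg q z ↔ Q.Reg q (fst z) ∧ Surjective (fderiv ℝ (D.F q) z.2.2) ∧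
    ∃ u k, fderiv ℝ (Q.F z.1 q) (Q.pt z.2.1) u = 0 ∧ fderiv ℝ (D.F q) z.2.2 k = 0 ∧
      fderiv ℝ (l z.1) (Q.pt z.2.1) u ≠ fderiv ℝ D.ρ z.2.2 k := by
  refine ⟨fun r => ⟨fun f => ?_, fun f => ?_, ?_⟩, fun ⟨a, b, u, k, c, d, e⟩ f => ?_⟩
  · obtain ⟨p, e⟩ := r (f, 0, 0)
    exact ⟨p.1, congrArg Prod.fst ((fderiv_F hQ hl hD hz p.1 p.2).symm.trans e)⟩
  · obtain ⟨p, e⟩ := r (0, f, 0)
    exact ⟨p.2, congrArg (·.2.1) ((fderiv_F hQ hl hD hz p.1 p.2).symm.trans e)⟩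
  · obtain ⟨p, e⟩ := r (0, 0, 1)
    have := (fderiv_F hQ hl hD hz p.1 p.2).symm.trans e
    exact ⟨p.1, p.2, congrArg Prod.fst this, congrArg (·.2.1) this,
      sub_ne_zero.1 ((congrArg (·.2.2) this).trans_ne one_ne_zero)⟩
  · obtain ⟨u', a⟩ := a f.1
    obtain ⟨k', b⟩ := b f.2.1
    let s := (f.2.2 - (fderiv ℝ (l z.1) (Q.pt z.2.1) u' - fderiv ℝ D.ρ z.2.2 k')) /
      (fderiv ℝ (l z.1) (Q.pt z.2.1) u - fderiv ℝ D.ρ z.2.2 k)
    refine ⟨(u' + s • u, k' + s • k), (fderiv_F hQ hl hD hz _ _).trans (Prod.ext ?_ (Prod.ext ?_ ?_))⟩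
    · simpa only [map_add, map_smul, c, smul_zero, add_zero] using a
    · simp only [map_add, map_smul, d, smul_zero, add_zero, b]
    · have := sub_ne_zero.2 e
      simp only [map_add, map_smul, smul_eq_mul, s]
      field_simp
      ring

theorem reg (r : (pex Q l D).Reg q z) : Q.Reg q (fst z) := ((reg_iff hQ hl hD hz).1 r).1

/-- the universal linearisation is onto: `w₀` acts only in the second equation and moves `ρ` -/
theorem onto [DecidableEq W] {J : Finset W} (o : Q.Onto q (fst z) J) (s : Surjective (fderiv ℝ (D.F q) z.2.2))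
    {w₀ : W} (h0 : Q.τ z.1 w₀ (Q.pt z.2.1) = 0) {k₀ : K} (h1 : fderiv ℝ (D.F q) z.2.2 k₀ = D.G w₀ z.2.2)
    (h2 : fderiv ℝ D.ρ z.2.2 k₀ ≠ 0) : (pex Q l D).Onto q z (insert w₀ J) := by
  intro f
  obtain ⟨u, c, a⟩ := Prob.Ax.onto_mono (Finset.subset_insert w₀ J) o f.1
  obtain ⟨k, b⟩ := s (f.2.1 - ∑ w : ↥(insert w₀ J), c w • D.G w z.2.2)
  let t := (f.2.2 - (fderiv ℝ (l z.1) (Q.pt z.2.1) u - fderiv ℝ D.ρ z.2.2 k)) / fderiv ℝ D.ρ z.2.2 k₀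
  let i : ↥(insert w₀ J) := ⟨w₀, Finset.mem_insert_self _ _⟩
  refine ⟨(u, k - t • k₀), c + Pi.single i t, ?_⟩
  rw [fderiv_F hQ hl hD hz]
  have e : ∀ {A : Type} [AddCommGroup A] [Module ℝ A] (g : W → A),
      ∑ w : ↥(insert w₀ J), (c + Pi.single i t : ↥(insert w₀ J) → ℝ) w • g w =
        ∑ w : ↥(insert w₀ J), c w • g w + t • g w₀ := fun g => by
    simp only [Pi.add_apply, add_smul, Finset.sum_add_distrib, Pi.single_apply, ite_smul, zero_smul,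
      Finset.sum_ite_eq', Finset.mem_univ, if_true, i]
  rw [e fun w => (pex Q l D).τ z.1 w ((pex Q l D).pt z.2)]
  change (_ : Q.E z.1 × K' × ℝ) + (∑ w : ↥(insert w₀ J), c w • (Q.τ z.1 w (Q.pt z.2.1), D.G w z.2.2, (0 : ℝ)) +
    t • (Q.τ z.1 w₀ (Q.pt z.2.1), D.G w₀ z.2.2, (0 : ℝ))) = f
  refine Prod.ext ?_ (Prod.ext ?_ ?_)
  · simpa only [Prod.fst_add, Prod.fst_sum, Prod.smul_fst, h0, smul_zero, add_zero] using a
  · simp only [Prod.snd_add, Prod.fst_add, Prod.fst_sum, Prod.snd_sum, Prod.smul_fst, Prod.smul_snd, map_sub, map_smul,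
      b, h1]
    abel
  · simp only [Prod.snd_add, Prod.snd_sum, Prod.smul_snd, map_sub, map_smul, smul_eq_mul, mul_zero,
      Finset.sum_const_zero, add_zero, t]
    field_simp
    ring

/-- if `l` is stationary on the first moduli space, `ρ` is a submersion on the second -/
theorem rho_onto (r : (pex Q l D).Reg q z)
    (hk : ∀ u, fderiv ℝ (Q.F z.1 q) (Q.pt z.2.1) u = 0 → fderiv ℝ (l z.1) (Q.pt z.2.1) u = 0) :
    ∃ k, fderiv ℝ (D.F q) z.2.2 k = 0 ∧ fderiv ℝ D.ρ z.2.2 k ≠ 0 := by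
  obtain ⟨-, -, u, k, a, b, c⟩ := (reg_iff hQ hl hD hz).1 r
  exact ⟨k, b, (hk u a ▸ c).symm⟩

end der

/-- compactness -/
theorem cpt {A : Set (pex Q l D).X} {B : Set Q.X} {C : Set K} (hB : Q.Cpt B) (hC : IsCompact C)
    (s : ∀ z ∈ A, fst z ∈ B ∧ z.2.2 ∈ C) (c : ∀ x ∈ B, ∀ h ∈ C, (∃ᶠ z in (pex Q l D).Near (mk l D x h), z ∈ A) →
      mk l D x h ∈ A) : (pex Q l D).Cpt A := fun ι 𝒰 u hu => by
  obtain ⟨x, a, b⟩ := hB ι 𝒰 _ (hu.mono fun i k => (s _ k).1)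
  obtain ⟨h, d, e⟩ := hC.ultrafilter_le_nhds (𝒰.map fun i => (u i).2.2)
    (le_principal_iff.2 (hu.mono fun i k => (s _ k).2))
  have t : Tendsto u 𝒰 ((pex Q l D).Near (mk l D x h)) := tendsto_near.2 ⟨b, e⟩
  exact ⟨_, c x a h d (t.frequently hu.frequently), t⟩

/-- invariant functions of the first factor (iterated coupling) -/
theorem invT_pex {l' : ∀ o, Q.C o → ℝ} (hs : ∀ o, ContDiffOn ℝ ∞ (l' o) (Q.U o))
    (hg : ∀ o (g : Q.G o), ∀ v ∈ Q.U o, l' o (g • v) = l' o v)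
    (ht : ∀ x x' : Q.X, Q.In x → Q.eqv x x' → ∃ T : Q.C x.1 → Q.C x'.1, T (Q.pt x.2) = Q.pt x'.2 ∧
      Q.Tw T (Q.pt x.2) ∧ (∀ᶠ u in 𝓝 (Q.pt x.2), l _ (T u) = l _ u ∧ l' _ (T u) = l' _ u) ∧
      ∀ y : Q.S x.1, ∃ y' : Q.S x'.1, Q.pt y' = T (Q.pt y) ∧ Q.eqv ⟨x.1, y⟩ ⟨x'.1, y'⟩) :
    InvT (pex Q l D) fun o z => l' o z.1 where
  sm o := (hs o).comp contDiffOn_fst fun _ h => h.1
  g o g v hv := hg o g v.1 hv.1
  tr x x' a e := by
    obtain ⟨T, b, c, d, f⟩ := ht (fst x) (fst x') a.1 e.1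
    refine ⟨_, Prod.ext b e.2, tw c (d.mono fun _ => And.left) x.2.2,
      (continuous_fst.tendsto (Q.pt x.2.1, x.2.2)).eventually (d.mono fun _ => And.right), fun y => ?_⟩
    obtain ⟨y', g, k⟩ := f y.1
    exact ⟨(y', y.2), Prod.ext g rfl, k, rfl⟩

/-! ### `K = K₀ × T` -/

section split
variable {K₀ T : Type} [NormedAddCommGroup K₀] [NormedSpace ℝ K₀] [CompleteSpace K₀] [NormedAddCommGroup T]
  [NormedSpace ℝ T] [CompleteSpace T] {D : PD W (K₀ × T) K'}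

/-- the derivative in the direction of `K₀` -/
abbrev d0 (D : PD W (K₀ × T) K') (q : W →₀ ℝ) (h : K₀ × T) : K₀ →L[ℝ] K' := (fderiv ℝ (D.F q) h).comp (.inl ℝ K₀ T)

theorem fr_d0 [FiniteDimensional ℝ T] {h : K₀ × T} (b : Bijective (d0 D q h)) :
    Fr (fderiv ℝ (D.F q) h) (Module.finrank ℝ T) :=
  (((Fr.of_bijective b).coprod ((fderiv ℝ (D.F q) h).comp (.inr ℝ K₀ T))).congr fun x =>
    (congrArg _ (Prod.fst_add_snd x).symm).trans (map_add _ _ _)).cast (zero_add _)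

/-- the solution map -/
theorem exists_solve (hD : D.OK Adm) {h : K₀ × T} (hh : h ∈ D.V) (h0 : D.F q h = 0) (b : Bijective (d0 D q h)) :
    ∃ s : T → K₀, ContDiffAt ℝ ∞ s h.2 ∧ s h.2 = h.1 ∧ ∀ᶠ k in 𝓝 h, D.F q k = 0 ↔ s k.2 = k.1 := by
  have a := (hD.smF q).contDiffAt (hD.op.mem_nhds hh)
  have c : ContDiffAt ℝ ∞ (D.F q ∘ Prod.swap) h.swap :=
    ContDiffAt.comp (g := D.F q) h.swap a (contDiffAt_snd.prodMk contDiffAt_fst)
  have e : fderiv ℝ (D.F q ∘ Prod.swap) h.swap ∘L .inr ℝ T K₀ = d0 D q h := by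
    rw [(HasFDerivAt.comp (g := D.F q) (f := Prod.swap) h.swap (a.differentiableAt (by simp)).hasFDerivAt
      (hasFDerivAt_snd.prodMk hasFDerivAt_fst)).fderiv]
    rfl
  have i : (fderiv ℝ (D.F q ∘ Prod.swap) h.swap ∘L .inr ℝ T K₀).IsInvertible := e ▸ ⟨ContinuousLinearEquiv.ofBijective _
    (LinearMap.ker_eq_bot.2 b.1) (LinearMap.range_eq_top.2 b.2), rfl⟩
  refine ⟨_, c.contDiffAt_implicitFunction (by simp) i, c.implicitFunction_apply_self _ i, ?_⟩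
  exact ((continuous_swap.tendsto h).eventually (c.eventually_apply_eq_iff_implicitFunction _ i)).mono
    fun k e => h0 ▸ e

variable (hQ : Q.Ax Adm) (hl : InvT Q l) (hD : D.OK Adm) {z : (pex Q l D).X} (hz : (pex Q l D).In z)
include hQ hl hD hz

theorem onto' [DecidableEq W] {J : Finset W} (o : Q.Onto q (fst z) J) (s : Surjective (d0 D q z.2.2))
    {w₀ : W} (h0 : Q.τ z.1 w₀ (Q.pt z.2.1) = 0) {k₀ : K₀} (h1 : d0 D q z.2.2 k₀ = D.G w₀ z.2.2)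
    (h2 : fderiv ℝ D.ρ z.2.2 (k₀, 0) ≠ 0) : (pex Q l D).Onto q z (insert w₀ J) :=
  onto hQ hl hD hz o (Surjective.of_comp (g := ContinuousLinearMap.inl ℝ K₀ T) s) h0 h1 h2

/-- the derivative of `ρ ∘ solve` is onto -/
theorem solve_onto (r : (pex Q l D).Reg q z)
    (hk : ∀ u, fderiv ℝ (Q.F z.1 q) (Q.pt z.2.1) u = 0 → fderiv ℝ (l z.1) (Q.pt z.2.1) u = 0)
    (i : Injective (d0 D q z.2.2)) {s : T → K₀} (hs : DifferentiableAt ℝ s z.2.2.2) (e : s z.2.2.2 = z.2.2.1)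
    (h0 : ∀ᶠ t in 𝓝 z.2.2.2, D.F q (s t, t) = 0) : Surjective (fderiv ℝ (fun t => D.ρ (s t, t)) z.2.2.2) := by
  obtain ⟨k, a, b⟩ := rho_onto hQ hl hD hz r hk
  have p : (s z.2.2.2, z.2.2.2) = z.2.2 := Prod.ext e rfl
  have d := hs.hasFDerivAt.prodMk (hasFDerivAt_id z.2.2.2)
  have m := hD.op.mem_nhds hz.2
  have d1 := HasFDerivAt.comp (g := D.F q) z.2.2.2
    (p ▸ (((hD.smF q).contDiffAt m).differentiableAt (by simp)).hasFDerivAt) d
  have d2 := HasFDerivAt.comp (g := D.ρ) z.2.2.2 (p ▸ ((hD.sρ.contDiffAt m).differentiableAt (by simp)).hasFDerivAt) d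
  have u : fderiv ℝ (D.F q) z.2.2 (fderiv ℝ s z.2.2.2 k.2, k.2) = 0 := by
    rw [← p]
    exact DFunLike.congr_fun (d1.unique ((hasFDerivAt_const 0 _).congr_of_eventuallyEq h0)) k.2
  have v : (fderiv ℝ s z.2.2.2 k.2, k.2) = k := Prod.ext (sub_eq_zero.1 ((injective_iff_map_eq_zero _).1 i _ (by
    rw [← sub_eq_zero.2 (u.trans a.symm), ← map_sub]
    exact congrArg (fderiv ℝ (D.F q) z.2.2) (Prod.ext rfl (sub_self k.2).symm)))) rfl
  have w : fderiv ℝ (fun t => D.ρ (s t, t)) z.2.2.2 k.2 = fderiv ℝ D.ρ z.2.2 k := by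
    rw [← v, ← p]
    exact DFunLike.congr_fun d2.fderiv k.2
  exact fun c => ⟨(c / fderiv ℝ D.ρ z.2.2 k) • k.2, by rw [map_smul, w, smul_eq_mul, div_mul_cancel₀ _ b]⟩

end split

end Crest.Agent.X212.Pex33
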