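import Crest.Agent.X212.Pex33.Main
import Crest.Agent.X212.Mod61.Inst

/-!
# Row 212, P-PEX (helper33): functions of the parameter are invariant
-/

set_option autoImplicit false
set_option linter.unusedSectionVars false
noncomputable section
open scoped Manifold ContDiff Topology
open Set Function Filter

namespace Crest.Agent.X212.Pex33
open Mod61

variable {E : Type} [NormedAddCommGroup E] [NormedSpace ℝ E] [FiniteDimensional ℝ E]
  [MeasurableSpace E] [BorelSpace E]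
  {HM : Type} [TopologicalSpace HM] {I : ModelWithCorners ℝ E HM} [I.Boundaryless]
  {M : Type} [TopologicalSpace M] [ChartedSpace HM M] [IsManifold I ∞ M]
  [MeasurableSpace M] [T2Space M] [BorelSpace M] [SecondCountableTopology M]
  {ι : Type} [Fintype ι] {lam : Type} [Fintype lam]
  {T : Type} [NormedAddCommGroup T] [NormedSpace ℝ T] [CompleteSpace T]
  {𝔉 : Fam I M ι lam T} {r n m : ℕ} {W : Type} {Θ : Th 𝔉 r n m W} {Adm : (W →₀ ℝ) → Prop} (h : Θ.OK Adm)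

/-- transport preserves the parameter -/
theorem tr_t (x x' : h.Q.X) (e : h.Q.eqv x x') : ∃ A : h.Q.C x.1 → h.Q.C x'.1, A (h.Q.pt x.2) = h.Q.pt x'.2 ∧
    h.Q.Tw A (h.Q.pt x.2) ∧ (∀ u : (Θ.ref x.1).C r Θ.k, (A u : (Θ.ref x'.1).C r Θ.k).2.2.2 = u.2.2.2) ∧
    ∀ y : h.Q.S x.1, ∃ y' : h.Q.S x'.1, h.Q.pt y' = A (h.Q.pt y) ∧ h.Q.eqv ⟨x.1, y⟩ ⟨x'.1, y'⟩ := by
  obtain ⟨ht, w, c, al, e⟩ := e
  obtain ⟨A, a, -, hA⟩ := h.tr_of ht al e
  refine ⟨_, ?_, hA _ x.2.mem_U, fun u => ?_, fun y => ?_⟩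
  · change x'.2.pt Θ.k + A (x.2.pt Θ.k - x.2.pt Θ.k) = x'.2.pt Θ.k
    rw [sub_self, map_zero, add_zero]
  · change x'.2.t + (A (u - x.2.pt Θ.k)).2.2.2 = _
    rw [a.t, ht]
    exact add_sub_cancel _ _
  · obtain ⟨y', h1, h2, h3⟩ := e.tr h.fam ht (h.mv x x' w c ht e al) y
    exact ⟨y', h3 _ h.k3 A a, h1, w, c, al, h2⟩

/-- a smooth function of the parameter -/
theorem invT_par {f : T → ℝ} (hf : ContDiffOn ℝ ∞ f 𝔉.Q) :
    InvT h.Q fun a (v : (Θ.ref a).C r Θ.k) => f v.2.2.2 where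
  sm _ := hf.comp (contDiff_snd.snd.snd).contDiffOn fun _ k => k
  g a g v _ := congrArg f ((Θ.Γ a).t_smul g v)
  tr x x' _ e := by
    obtain ⟨A, a, b, c, d⟩ := tr_t h x x' e
    exact ⟨A, a, b, .of_forall fun u => congrArg f (c u), d⟩

end Crest.Agent.X212.Pex33
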